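import Vale.Agent.P024.W.Cond

/-! A nonzero minor of the interpolation matrix. -/

namespace Vale.Agent.P024.W

open MvPolynomial Finset

variable {K : Type*} [Field K]

/-- the entry `∏ ξ_{j i} ^ (s_j t_i)` of the interpolation matrix -/
def ent {l n : ℕ} (ξ : Fin l → Fin n → K) {T S : ℕ} (t : Fin n → Fin T) (s : Fin l → Fin S) : K :=
  ∏ j, ∏ i, ξ j i ^ ((s j : ℕ) * (t i : ℕ))

lemma ent_eq {l n : ℕ} (ξ : Fin l → Fin n → K) {T S : ℕ} (t : Fin n → Fin T)
    (s : Fin l → Fin S) : ent ξ t s = ∏ i, pt ξ (fun j => (s j : ℕ)) i ^ (t i : ℕ) := by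
  unfold ent pt
  rw [prod_comm]
  refine prod_congr rfl fun i _ => ?_
  rw [← prod_pow]
  exact prod_congr rfl fun j _ => by rw [pow_mul]

/-- the rows of the interpolation matrix are linearly independent -/
lemma rows_indep {l n : ℕ} {ξ : Fin l → Fin n → K} (hξ : ∀ j i, ξ j i ≠ 0) (hind : Indep ξ)
    {T S : ℕ} (hC : Cond l n T S) :
    LinearIndependent K (fun t : Fin n → Fin T => fun s : Fin l → Fin S => ent ξ t s) := by
  classical
  rw [Fintype.linearIndependent_iff]
  intro c hc t₀
  let ex : (Fin n → Fin T) → (Fin n →₀ ℕ) := fun t =>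
    Finsupp.equivFunOnFinite.symm fun i => (t i : ℕ)
  have hex : Function.Injective ex := by
    intro t t' h
    funext i
    apply Fin.ext
    have := DFunLike.congr_fun h i
    exact this
  set P : MvPolynomial (Fin n) K := ∑ t, monomial (ex t) (c t) with hP
  have hP0 : P = 0 := by
    refine zero_est n ξ hξ hind T S hC P ?_ ?_
    · intro i
      have hT : 0 < T := lt_of_le_of_lt (Nat.zero_le _) (t₀ i).2
      rw [degreeOf_lt_iff hT]
      intro m hm
      obtain ⟨t, -, ht⟩ := mem_biUnion.1 (support_sum hm)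
      have h1 := support_monomial_subset ht
      rw [mem_singleton] at h1
      subst h1
      exact (t i).2
    · intro s hs
      have h1 := congrFun hc (fun j => ⟨s j, hs j⟩)
      rw [Finset.sum_apply, Pi.zero_apply] at h1
      rw [hP, map_sum, ← h1]
      refine sum_congr rfl fun t _ => ?_
      rw [eval_monomial, Pi.smul_apply, smul_eq_mul, ent_eq, Finsupp.prod_fintype _ _
        (fun i => pow_zero _)]
      rfl
  have h2 : coeff (ex t₀) P = c t₀ := by
    rw [hP, coeff_sum, sum_eq_single t₀]
    · rw [coeff_monomial, if_pos rfl]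
    · intro t _ ht
      rw [coeff_monomial, if_neg (fun h => ht (hex h))]
    · intro h
      exact absurd (mem_univ _) h
  rw [← h2, hP0, coeff_zero]

/-- a matrix with linearly independent rows has a nonzero minor of full size -/
lemma exists_minor {ι κ : Type*} [Fintype ι] [DecidableEq ι] [Fintype κ]
    (M : ι → κ → K) (h : LinearIndependent K M) :
    ∃ s : ι → κ, (Matrix.of fun a b => M a (s b)).det ≠ 0 := by
  classical
  -- the columns span `ι → K`
  set A : Matrix ι κ K := Matrix.of M with hA
  have h1 : LinearIndependent K A.row := h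
  have h2 : A.rank = Fintype.card ι := h1.rank_matrix
  have h3 : Module.finrank K (Submodule.span K (Set.range A.col)) = Fintype.card ι := by
    rw [← Matrix.rank_eq_finrank_span_cols]
    exact h2
  have h4 : Submodule.span K (Set.range A.col) = ⊤ := by
    apply Submodule.eq_top_of_finrank_eq
    rw [h3, Module.finrank_fintype_fun_eq_card]
  obtain ⟨b, hb1, hb2, hb3⟩ := exists_linearIndependent K (Set.range A.col)
  rw [h4] at hb2
  have : Fintype b := (Set.Finite.subset (Set.finite_range A.col) hb1).fintype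
  let B : Module.Basis b K (ι → K) := Module.Basis.mk hb3 (by rw [Subtype.range_coe, hb2])
  have hcard : Fintype.card b = Fintype.card ι := by
    rw [← Module.finrank_eq_card_basis B, Module.finrank_fintype_fun_eq_card]
  let e : ι ≃ b := Fintype.equivOfCardEq hcard.symm
  have h5 : ∀ i : ι, ∃ k : κ, A.col k = (e i : ι → K) := fun i => hb1 (e i).2
  choose s hs using h5
  refine ⟨s, ?_⟩
  have h6 : LinearIndependent K (fun i : ι => ((e i : b) : ι → K)) :=
    hb3.comp _ e.injective
  have h7 : (Matrix.of fun a b => M a (s b)).transpose = Matrix.of fun i : ι => ((e i : b) : ι → K) := by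
    ext i a
    rw [Matrix.transpose_apply, Matrix.of_apply, Matrix.of_apply, ← hs i]
    rfl
  rw [← Matrix.det_transpose, h7]
  have h8 : IsUnit (Matrix.of fun i : ι => ((e i : b) : ι → K)) :=
    Matrix.linearIndependent_rows_iff_isUnit.1 h6
  rw [Matrix.isUnit_iff_isUnit_det] at h8
  exact h8.ne_zero

/-- **A nonzero minor of the interpolation matrix.** -/
theorem exists_ent_minor {l n : ℕ} {ξ : Fin l → Fin n → K} (hξ : ∀ j i, ξ j i ≠ 0)
    (hind : Indep ξ) {T S : ℕ} (hC : Cond l n T S) :
    ∃ s : (Fin n → Fin T) → Fin l → Fin S,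
      (Matrix.of fun t a => ent ξ t (s a)).det ≠ 0 :=
  exists_minor _ (rows_indep hξ hind hC)

/-- The same with rows and columns numbered by `Fin (T ^ n)`. -/
theorem exists_ent_minor' {l n : ℕ} {ξ : Fin l → Fin n → K} (hξ : ∀ j i, ξ j i ≠ 0)
    (hind : Indep ξ) {T S : ℕ} (hC : Cond l n T S) :
    ∃ (t : Fin (T ^ n) → Fin n → Fin T) (s : Fin (T ^ n) → Fin l → Fin S),
      (Matrix.of fun a b => ent ξ (t a) (s b)).det ≠ 0 := by
  obtain ⟨s, hs⟩ := exists_ent_minor hξ hind hC
  let e : Fin (T ^ n) ≃ (Fin n → Fin T) := Fintype.equivOfCardEq (by simp)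
  refine ⟨e, fun b => s (e b), ?_⟩
  rw [← Matrix.det_submatrix_equiv_self e] at hs
  exact hs

end Vale.Agent.P024.W
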