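import Mathlib

/-!
# P024, block [W4]: the closure of a finitely generated group of units `≡ 1 mod p` is open or has
rank at most `d - 1` modulo every power of `p`.
-/

namespace Vale.Agent.P024.W.H95

open Finset

section Ring

variable {R : Type*} [CommRing R]

theorem one_add_pow_prime (p : ℕ) [hp : Fact p.Prime] (y : R) :
    ∃ s : R, (1 + y) ^ p = 1 + p * y + p * y ^ 2 * s + y ^ p := by
  obtain ⟨n, hn⟩ : ∃ n, p = n + 2 := ⟨p - 2, by have := hp.out.two_le; omega⟩
  have hdvd : ∀ m ∈ range n, (p : ℕ) ∣ p.choose (m + 2) := by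
    intro m hm
    have hm' := mem_range.1 hm
    exact hp.out.dvd_choose_self (by omega) (by omega)
  choose! c hc using hdvd
  refine ⟨∑ m ∈ range n, (c m : R) * y ^ m, ?_⟩
  have h1 : (1 + y) ^ p = ∑ m ∈ range (p + 1), y ^ m * (p.choose m : R) := by
    rw [add_comm, add_pow]
    refine sum_congr rfl fun m _ => ?_
    rw [one_pow, mul_one]
  rw [h1, sum_range_succ]
  have h2 : ∑ m ∈ range p, y ^ m * (p.choose m : R) =
      (∑ m ∈ range n, y ^ (m + 2) * (p.choose (m + 2) : R)) + y * p + 1 := by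
    conv_lhs => rw [show range p = range (n + 2) from by rw [hn]]
    rw [sum_range_succ', sum_range_succ']
    simp
  rw [h2, mul_sum]
  have h3 : ∑ m ∈ range n, y ^ (m + 2) * (p.choose (m + 2) : R) =
      ∑ m ∈ range n, p * y ^ 2 * ((c m : R) * y ^ m) := by
    refine sum_congr rfl fun m hm => ?_
    rw [hc m hm]
    push_cast
    ring
  rw [h3, Nat.choose_self]
  push_cast
  ring

theorem one_add_pow (p : ℕ) [hp : Fact p.Prime] (hp2 : p ≠ 2) {i : ℕ} (hi : 1 ≤ i) (z : R) :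
    ∃ c : R, (1 + (p : R) ^ i * z) ^ p = 1 + (p : R) ^ (i + 1) * z + (p : R) ^ (i + 2) * c := by
  obtain ⟨s, hs⟩ := one_add_pow_prime (R := R) p ((p : R) ^ i * z)
  have h3 : 3 ≤ p := by
    have := hp.out.two_le
    omega
  obtain ⟨a, ha⟩ : ∃ a, i * p = i + 2 + a := by
    refine ⟨i * p - (i + 2), ?_⟩
    have : i * 3 ≤ i * p := Nat.mul_le_mul_left _ h3
    omega
  obtain ⟨b, hb⟩ : ∃ b, 2 * i + 1 = i + 2 + b := ⟨i - 1, by omega⟩
  refine ⟨(p : R) ^ b * (z ^ 2 * s) + (p : R) ^ a * z ^ p, ?_⟩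
  rw [hs]
  have e1 : (p : R) * ((p : R) ^ i * z) ^ 2 * s = (p : R) ^ (i + 2) * ((p : R) ^ b * (z ^ 2 * s)) := by
    rw [← mul_assoc, ← pow_add, ← hb]
    ring
  have e2 : ((p : R) ^ i * z) ^ p = (p : R) ^ (i + 2) * ((p : R) ^ a * z ^ p) := by
    rw [← mul_assoc, ← pow_add, ← ha, mul_pow, ← pow_mul]
  rw [e1, e2]
  ring

/-- last layers propagate -/
theorem layer_succ (p : ℕ) [hp : Fact p.Prime] (hp2 : p ≠ 2) {l : ℕ} (x : Fin l → R) {k : ℕ}
    (hk : 2 ≤ k)
    (h : ∀ w : R, ∃ n : Fin l → ℕ, (p : R) ^ k ∣ (1 + (p : R) ^ (k - 1) * w) - ∏ j, x j ^ n j)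
    (w : R) :
    ∃ n : Fin l → ℕ, (p : R) ^ (k + 1) ∣ (1 + (p : R) ^ k * w) - ∏ j, x j ^ n j := by
  obtain ⟨n, c, hc⟩ := h w
  obtain ⟨e, he⟩ := one_add_pow (R := R) p hp2 (i := k - 1) (by omega) (w - p * c)
  refine ⟨fun j => n j * p, c - e, ?_⟩
  have h1 : ∏ j, x j ^ (n j * p) = (∏ j, x j ^ n j) ^ p := by
    rw [← prod_pow]
    exact prod_congr rfl fun j _ => by rw [pow_mul]
  have hk1 : (p : R) ^ k = (p : R) ^ (k - 1) * p := by
    rw [← pow_succ]
    congr 1
    omega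
  have h2 : ∏ j, x j ^ n j = 1 + (p : R) ^ (k - 1) * (w - p * c) := by
    have : ∏ j, x j ^ n j = (1 + (p : R) ^ (k - 1) * w) - (p : R) ^ k * c := by
      rw [← hc]
      ring
    rw [this, hk1]
    ring
  rw [h1, h2, he]
  have e1 : k - 1 + 1 = k := by omega
  have e2 : k - 1 + 2 = k + 1 := by omega
  rw [e1, e2, pow_succ]
  ring

/-- if one layer is in the image of the group, the closure is open -/
theorem open_of_layer (p : ℕ) [hp : Fact p.Prime] (hp2 : p ≠ 2) {l : ℕ} (x : Fin l → R)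
    (hx : ∀ j, (p : R) ∣ x j - 1) {K : ℕ} (hK : 2 ≤ K)
    (h : ∀ w : R, ∃ n : Fin l → ℕ, (p : R) ^ K ∣ (1 + (p : R) ^ (K - 1) * w) - ∏ j, x j ^ n j) :
    ∀ k, ∀ z : R, (p : R) ^ (K - 1) ∣ z - 1 →
      ∃ n : Fin l → ℕ, (p : R) ^ k ∣ z - ∏ j, x j ^ n j := by
  have hlay : ∀ m, ∀ w : R, ∃ n : Fin l → ℕ,
      (p : R) ^ (K + m) ∣ (1 + (p : R) ^ (K + m - 1) * w) - ∏ j, x j ^ n j := by
    intro m
    induction m with
    | zero => simpa using h
    | succ m ih =>
      intro w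
      have := layer_succ p hp2 x (k := K + m) (by omega) ih w
      simpa [add_assoc] using this
  have hone : ∀ n : Fin l → ℕ, (p : R) ∣ (∏ j, x j ^ n j) - 1 := by
    intro n
    have h1 : ∀ j, Ideal.Quotient.mk (Ideal.span {(p : R)}) (x j) = 1 := by
      intro j
      rw [← map_one (Ideal.Quotient.mk (Ideal.span {(p : R)})), Ideal.Quotient.eq,
        Ideal.mem_span_singleton]
      exact hx j
    have h2 : Ideal.Quotient.mk (Ideal.span {(p : R)}) (∏ j, x j ^ n j) = 1 := by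
      rw [map_prod]
      simp [h1]
    rwa [← map_one (Ideal.Quotient.mk (Ideal.span {(p : R)})), Ideal.Quotient.eq,
      Ideal.mem_span_singleton] at h2
  have hmain : ∀ m, ∀ z : R, (p : R) ^ (K - 1) ∣ z - 1 →
      ∃ n : Fin l → ℕ, (p : R) ^ (K - 1 + m) ∣ z - ∏ j, x j ^ n j := by
    intro m
    induction m with
    | zero =>
      intro z hz
      exact ⟨fun _ => 0, by simpa using hz⟩
    | succ m ih =>
      intro z hz
      obtain ⟨n, c, hc⟩ := ih z hz
      obtain ⟨n', c', hc'⟩ := hlay m c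
      obtain ⟨b, hb⟩ := hone n
      refine ⟨fun j => n j + n' j, c' * (∏ j, x j ^ n j) - b * c, ?_⟩
      have e1 : ∏ j, x j ^ (n j + n' j) = (∏ j, x j ^ n j) * ∏ j, x j ^ n' j := by
        rw [← prod_mul_distrib]
        exact prod_congr rfl fun j _ => by rw [pow_add]
      have e2 : K + m - 1 = K - 1 + m := by omega
      have e3 : K - 1 + (m + 1) = K + m := by omega
      have e4 : (p : R) ^ (K + m) = (p : R) ^ (K - 1 + m) * p := by
        rw [← pow_succ]
        congr 1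
        omega
      rw [e2] at hc'
      rw [e1, e3]
      have e5 : ∏ j, x j ^ n' j = (1 + (p : R) ^ (K - 1 + m) * c) - (p : R) ^ (K + m) * c' := by
        rw [← hc']
        ring
      have e6 : ∏ j, x j ^ n j = 1 + p * b := by
        rw [← hb]
        ring
      have e7 : z = (p : R) ^ (K - 1 + m) * c + ∏ j, x j ^ n j := by
        rw [← hc]
        ring
      rw [e5, e7]
      generalize ∏ j, x j ^ n j = P at e6
      subst e6
      rw [e4]
      ring
  intro k z hz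
  obtain ⟨n, hn⟩ := hmain k z hz
  exact ⟨n, (pow_dvd_pow _ (by omega)).trans hn⟩

end Ring

section Group

/-- structure of a finite commutative `p`-group: `r` generators, and `p ^ r` elements of exponent
`p` -/
theorem structure_pgroup (p : ℕ) [hp : Fact p.Prime] (G : Type*) [CommGroup G] [Finite G] {N : ℕ}
    (hG : ∀ g : G, g ^ p ^ N = 1) :
    ∃ (r : ℕ) (e : Fin r → G), (∀ g : G, ∃ t : Fin r → ℕ, g = ∏ i, e i ^ t i) ∧
      ∃ τ : (Fin r → Fin p) → G, Function.Injective τ ∧ ∀ s, τ s ^ p = 1 := by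
  classical
  obtain ⟨ι, hι, n, hn, ⟨φ⟩⟩ := CommGroup.equiv_prod_multiplicative_zmod_of_finite G
  have hn0 : ∀ i, NeZero (n i) := fun i => ⟨by have := hn i; omega⟩
  set e : ι → G := fun i => φ.symm (Pi.mulSingle i (Multiplicative.ofAdd (1 : ZMod (n i)))) with he
  have hgen : ∀ g : G, ∃ t : ι → ℕ, g = ∏ i, e i ^ t i := by
    intro g
    refine ⟨fun i => (Multiplicative.toAdd (φ g i)).val, ?_⟩
    apply φ.injective
    rw [map_prod]
    funext i
    rw [Finset.prod_apply, Finset.prod_eq_single i]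
    · rw [map_pow, he]
      simp only [MulEquiv.apply_symm_apply, Pi.pow_apply, Pi.mulSingle_eq_same]
      rw [← ofAdd_nsmul, nsmul_eq_mul, mul_one, ZMod.natCast_val, ZMod.cast_id', id_eq,
        ofAdd_toAdd]
    · intro j _ hj
      rw [map_pow, he]
      simp only [MulEquiv.apply_symm_apply, Pi.pow_apply]
      rw [Pi.mulSingle_eq_of_ne' hj, one_pow]
    · intro h
      exact absurd (mem_univ i) h
  have hpn : ∀ i, p ∣ n i := by
    intro i
    have h1 := hG (e i)
    have h2 : (Multiplicative.ofAdd (1 : ZMod (n i))) ^ p ^ N = 1 := by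
      have h3 := congrArg (fun g => φ g i) h1
      simpa [he] using h3
    rw [← ofAdd_nsmul, nsmul_eq_mul, mul_one, ofAdd_eq_one] at h2
    rw [ZMod.natCast_eq_zero_iff] at h2
    obtain ⟨a, _, ha⟩ := (Nat.dvd_prime_pow hp.out).1 h2
    rw [ha]
    refine dvd_pow_self p ?_
    rintro rfl
    have := hn i
    rw [ha] at this
    simp at this
  set τ : (ι → Fin p) → G := fun s =>
    φ.symm fun i => Multiplicative.ofAdd (((s i : ℕ) * (n i / p) : ℕ) : ZMod (n i)) with hτ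
  have hτp : ∀ s, τ s ^ p = 1 := by
    intro s
    apply φ.injective
    rw [map_pow, map_one]
    funext i
    rw [hτ]
    simp only [MulEquiv.apply_symm_apply, Pi.pow_apply, Pi.one_apply]
    rw [← ofAdd_nsmul, nsmul_eq_mul, ← Nat.cast_mul, ofAdd_eq_one, ZMod.natCast_eq_zero_iff]
    refine ⟨(s i : ℕ), ?_⟩
    have : n i / p * p = n i := Nat.div_mul_cancel (hpn i)
    calc p * ((s i : ℕ) * (n i / p)) = (n i / p * p) * (s i : ℕ) := by ring
      _ = _ := by rw [this]
  have hτi : Function.Injective τ := by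
    intro s s' h
    funext i
    have h1 := congrFun (φ.symm.injective h) i
    have h2 : (((s i : ℕ) * (n i / p) : ℕ) : ZMod (n i)) = (((s' i : ℕ) * (n i / p) : ℕ) : ZMod (n i)) :=
      Multiplicative.ofAdd.injective h1
    rw [ZMod.natCast_eq_natCast_iff'] at h2
    have hq : n i / p * p = n i := Nat.div_mul_cancel (hpn i)
    have hqpos : 0 < n i / p := by
      rcases Nat.eq_zero_or_pos (n i / p) with h0 | h0
      · rw [h0, zero_mul] at hq
        have := hn i
        omega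
      · exact h0
    have hlt : ∀ a : Fin p, (a : ℕ) * (n i / p) < n i := by
      intro a
      calc (a : ℕ) * (n i / p) < p * (n i / p) := Nat.mul_lt_mul_of_pos_right a.2 hqpos
        _ = n i := by rw [mul_comm, hq]
    rw [Nat.mod_eq_of_lt (hlt _), Nat.mod_eq_of_lt (hlt _)] at h2
    exact Fin.ext (Nat.eq_of_mul_eq_mul_right hqpos h2)
  set ε := Fintype.equivFin ι with hε
  refine ⟨Fintype.card ι, fun i => e (ε.symm i), fun g => ?_, fun s => τ (fun i => s (ε i)), ?_, ?_⟩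
  · obtain ⟨t, ht⟩ := hgen g
    refine ⟨fun i => t (ε.symm i), ?_⟩
    rw [ht]
    exact (Equiv.prod_comp ε.symm fun i => e i ^ t i).symm
  · intro s s' h
    have h1 := hτi h
    funext i
    have := congrFun h1 (ε.symm i)
    simpa using this
  · intro s
    exact hτp _

end Group

section Level

variable {R : Type*} [CommRing R] [IsDomain R]

theorem dvd_of_pow_eq_one (p : ℕ) [hp : Fact p.Prime] (hp2 : p ≠ 2) (h0 : (p : R) ≠ 0) {K : ℕ}
    {y : R} (hy : (p : R) ∣ y) (h : (p : R) ^ K ∣ (1 + y) ^ p - 1) :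
    ∀ i, i + 1 ≤ K → (p : R) ^ i ∣ y := by
  intro i
  induction i with
  | zero =>
    intro _
    simp
  | succ i ih =>
    intro hi
    rcases Nat.eq_zero_or_pos i with rfl | hi0
    · simpa using hy
    obtain ⟨z, hz⟩ := ih (by omega)
    obtain ⟨c, hc⟩ := one_add_pow (R := R) p hp2 hi0 z
    have h1 : (p : R) ^ (i + 2) ∣ (1 + y) ^ p - 1 := (pow_dvd_pow _ (by omega)).trans h
    rw [hz, hc] at h1
    have h2 : (p : R) ^ (i + 2) ∣ (p : R) ^ (i + 1) * z := by
      have h3 : (p : R) ^ (i + 1) * z =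
          (1 + (p : R) ^ (i + 1) * z + (p : R) ^ (i + 2) * c - 1) - (p : R) ^ (i + 2) * c := by
        ring
      rw [h3]
      exact dvd_sub h1 (dvd_mul_right _ _)
    have h4 : (p : R) ∣ z := by
      rw [show i + 2 = (i + 1) + 1 from rfl, pow_succ] at h2
      exact (mul_dvd_mul_iff_left (pow_ne_zero _ h0)).1 h2
    rw [hz, pow_succ]
    exact mul_dvd_mul_left _ h4

/-- the dichotomy at one level -/
theorem level (p : ℕ) [hp : Fact p.Prime] (hp2 : p ≠ 2) (h0 : (p : R) ≠ 0) (d : ℕ)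
    [hfin : Finite (R ⧸ Ideal.span {(p : R)})]
    (hcard : Nat.card (R ⧸ Ideal.span {(p : R)}) = p ^ d) {K : ℕ} (hK : 2 ≤ K)
    [hfinK : Finite (R ⧸ Ideal.span {(p : R) ^ K})] {l : ℕ} (x : Fin l → R)
    (hx : ∀ j, (p : R) ∣ x j - 1) :
    (∀ w : R, ∃ n : Fin l → ℕ, (p : R) ^ K ∣ (1 + (p : R) ^ (K - 1) * w) - ∏ j, x j ^ n j) ∨
    ∃ u : Fin (d - 1) → R, (∀ i, (p : R) ∣ u i - 1) ∧ ∃ z : Fin l → Fin (d - 1) → ℕ,
      ∀ j, (p : R) ^ K ∣ x j - ∏ i, u i ^ z j i := by
  classical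
  set I : Ideal R := Ideal.span {(p : R) ^ K} with hI
  set mk := Ideal.Quotient.mk I with hmk
  have hmk_eq : ∀ a b : R, mk a = mk b ↔ (p : R) ^ K ∣ a - b := by
    intro a b
    rw [hmk, Ideal.Quotient.eq, hI, Ideal.mem_span_singleton]
  have hpK : (p : R) ∣ (p : R) ^ K := dvd_pow_self _ (by omega)
  -- units congruent to one
  have hunit : ∀ y : R, (p : R) ∣ y - 1 → IsUnit (mk y) := by
    intro y hy
    obtain ⟨b, hb⟩ := hy
    have h1 : mk y = 1 + mk ((p : R) * b) := by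
      rw [← map_one mk, ← map_add, ← hb]
      congr 1
      ring
    rw [h1]
    apply IsNilpotent.isUnit_one_add
    refine ⟨K, ?_⟩
    rw [← map_pow, mul_pow, ← map_zero mk, hmk_eq, sub_zero]
    exact dvd_mul_right _ _
  have hξ0 : ∀ j, ∃ v : (R ⧸ I)ˣ, (v : R ⧸ I) = mk (x j) := fun j => hunit _ (hx j)
  choose ξ hξ using hξ0
  set Γ : Subgroup (R ⧸ I)ˣ := Subgroup.closure (Set.range ξ) with hΓ
  have hfinΓ : Finite Γ := inferInstance
  -- elements of the group
  have hrep : ∀ v ∈ Γ, ∃ n : Fin l → ℕ, (v : (R ⧸ I)ˣ) = ∏ j, ξ j ^ n j := by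
    intro v hv
    induction hv using Subgroup.closure_induction with
    | mem v hv =>
      obtain ⟨j, rfl⟩ := hv
      refine ⟨Pi.single j 1, ?_⟩
      rw [prod_eq_single j]
      · simp
      · intro i _ hij
        rw [Pi.single_eq_of_ne hij, pow_zero]
      · intro h
        exact absurd (mem_univ j) h
    | one => exact ⟨0, by simp⟩
    | mul v w _ _ hv hw =>
      obtain ⟨n, hn⟩ := hv
      obtain ⟨m, hm⟩ := hw
      refine ⟨n + m, ?_⟩
      rw [hn, hm, ← prod_mul_distrib]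
      exact prod_congr rfl fun j _ => by rw [Pi.add_apply, pow_add]
    | inv v _ hv =>
      obtain ⟨n, hn⟩ := hv
      refine ⟨fun j => n j * (orderOf v - 1), ?_⟩
      have h1 : v⁻¹ = v ^ (orderOf v - 1) := by
        have hpos : 0 < orderOf v := orderOf_pos v
        have h2 : v ^ (orderOf v - 1) * v = 1 := by
          rw [← pow_succ, Nat.sub_add_cancel hpos, pow_orderOf_eq_one]
        exact (eq_inv_of_mul_eq_one_left h2).symm
      rw [h1]
      nth_rewrite 1 [hn]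
      rw [← prod_pow]
      exact prod_congr rfl fun j _ => by rw [pow_mul]
  have hcoe : ∀ n : Fin l → ℕ, ((∏ j, ξ j ^ n j : (R ⧸ I)ˣ) : R ⧸ I) = mk (∏ j, x j ^ n j) := by
    intro n
    rw [Units.coe_prod, map_prod]
    exact prod_congr rfl fun j _ => by rw [Units.val_pow_eq_pow_val, hξ, map_pow]
  have hone : ∀ n : Fin l → ℕ, (p : R) ∣ (∏ j, x j ^ n j) - 1 := by
    intro n
    have h1 : ∀ j, Ideal.Quotient.mk (Ideal.span {(p : R)}) (x j) = 1 := by
      intro j
      rw [← map_one (Ideal.Quotient.mk (Ideal.span {(p : R)})), Ideal.Quotient.eq,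
        Ideal.mem_span_singleton]
      exact hx j
    have h2 : Ideal.Quotient.mk (Ideal.span {(p : R)}) (∏ j, x j ^ n j) = 1 := by
      rw [map_prod]
      simp [h1]
    rwa [← map_one (Ideal.Quotient.mk (Ideal.span {(p : R)})), Ideal.Quotient.eq,
      Ideal.mem_span_singleton] at h2
  -- a lift
  have hlift : ∀ v : Γ, ∃ y : R, (p : R) ∣ y ∧ ((v : (R ⧸ I)ˣ) : R ⧸ I) = mk (1 + y) := by
    intro v
    obtain ⟨n, hn⟩ := hrep v v.2
    refine ⟨∏ j, x j ^ n j - 1, hone n, ?_⟩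
    rw [hn, hcoe]
    congr 1
    ring
  -- the group has exponent `p ^ K`
  have hexp : ∀ g : Γ, g ^ p ^ K = 1 := by
    intro g
    obtain ⟨y, ⟨b, hb⟩, hy⟩ := hlift g
    have h1 : ∀ m, ∃ c : R, (1 + y) ^ p ^ m = 1 + (p : R) ^ (m + 1) * c := by
      intro m
      induction m with
      | zero => exact ⟨b, by rw [pow_zero, pow_one, hb]; ring⟩
      | succ m ih =>
        obtain ⟨c, hc⟩ := ih
        obtain ⟨c', hc'⟩ := one_add_pow (R := R) p hp2 (i := m + 1) (by omega) c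
        refine ⟨c + p * c', ?_⟩
        rw [pow_succ, pow_mul, hc, hc']
        ring
    obtain ⟨c, hc⟩ := h1 K
    apply Subtype.ext
    apply Units.ext
    rw [SubgroupClass.coe_pow, Units.val_pow_eq_pow_val, hy, ← map_pow, hc]
    show mk (1 + (p : R) ^ (K + 1) * c) = ((1 : (R ⧸ I)ˣ) : R ⧸ I)
    rw [Units.val_one, ← map_one mk, hmk_eq]
    refine ⟨p * c, ?_⟩
    ring
  obtain ⟨r, e, hgen, τ, hτi, hτp⟩ := structure_pgroup p Γ hexp
  -- elements of exponent `p`
  have htor : ∀ s, ∃ z : R, ((τ s : (R ⧸ I)ˣ) : R ⧸ I) = mk (1 + (p : R) ^ (K - 1) * z) := by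
    intro s
    obtain ⟨y, hy1, hy2⟩ := hlift (τ s)
    have h1 : (p : R) ^ K ∣ (1 + y) ^ p - 1 := by
      rw [← hmk_eq, map_pow, ← hy2, map_one]
      have h2 := congrArg (fun g : Γ => ((g : (R ⧸ I)ˣ) : R ⧸ I)) (hτp s)
      simpa using h2
    obtain ⟨z, hz⟩ := dvd_of_pow_eq_one p hp2 h0 hy1 h1 (K - 1) (by omega)
    exact ⟨z, by rw [hy2, hz]⟩
  choose ζ hζ using htor
  set mp := Ideal.Quotient.mk (Ideal.span {(p : R)}) with hmp
  have hmp_eq : ∀ a b : R, mp a = mp b ↔ (p : R) ∣ a - b := by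
    intro a b
    rw [hmp, Ideal.Quotient.eq, Ideal.mem_span_singleton]
  have hpp : (p : R) ^ K = (p : R) ^ (K - 1) * p := by
    rw [← pow_succ]
    congr 1
    omega
  have hlay : ∀ a b : R, mp a = mp b →
      mk (1 + (p : R) ^ (K - 1) * a) = mk (1 + (p : R) ^ (K - 1) * b) := by
    intro a b hab
    rw [hmp_eq] at hab
    rw [hmk_eq, hpp]
    have : 1 + (p : R) ^ (K - 1) * a - (1 + (p : R) ^ (K - 1) * b) = (p : R) ^ (K - 1) * (a - b) := by
      ring
    rw [this]
    exact mul_dvd_mul_left _ hab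
  have hinj : Function.Injective fun s => mp (ζ s) := by
    intro s s' h
    apply hτi
    apply Subtype.ext
    apply Units.ext
    rw [hζ, hζ]
    exact hlay _ _ h
  by_cases hr : d ≤ r
  · left
    have hc1 : Nat.card (Fin r → Fin p) = p ^ r := by simp
    have hle : p ^ r ≤ p ^ d := by
      rw [← hcard, ← hc1]
      exact Nat.card_le_card_of_injective _ hinj
    have hle' : r ≤ d := (Nat.pow_le_pow_iff_right hp.out.one_lt).1 hle
    have hrd : r = d := le_antisymm hle' hr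
    have hbij : Function.Bijective fun s => mp (ζ s) := by
      rw [Nat.bijective_iff_injective_and_card]
      exact ⟨hinj, by rw [hc1, hcard, hrd]⟩
    intro w
    obtain ⟨s, hs⟩ := hbij.2 (mp w)
    obtain ⟨n, hn⟩ := hrep (τ s) (τ s).2
    refine ⟨n, ?_⟩
    rw [← hmk_eq, ← hcoe, ← hn, hζ]
    exact (hlay _ _ hs).symm
  · right
    have hrd : r ≤ d - 1 := by omega
    choose y hy1 hy2 using fun i => hlift (e i)
    have hξΓ : ∀ j, ξ j ∈ Γ := fun j => Subgroup.subset_closure (Set.mem_range_self j)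
    choose t ht using fun j => hgen ⟨ξ j, hξΓ j⟩
    refine ⟨fun i => if h : (i : ℕ) < r then 1 + y ⟨i, h⟩ else 1, ?_,
      fun j i => if h : (i : ℕ) < r then t j ⟨i, h⟩ else 0, ?_⟩
    · intro i
      by_cases h : (i : ℕ) < r
      · simp only [h, dif_pos, add_sub_cancel_left]
        exact hy1 _
      · simp [h]
    · intro j
      rw [← hmk_eq, ← hξ, map_prod]
      have h1 := congrArg (fun g : Γ => ((g : (R ⧸ I)ˣ) : R ⧸ I)) (ht j)
      have h2 : ((ξ j : (R ⧸ I)ˣ) : R ⧸ I) = ∏ i, (mk (1 + y i)) ^ t j i := by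
        have h3 : ((ξ j : (R ⧸ I)ˣ) : R ⧸ I) =
            (((∏ i, e i ^ t j i : Γ) : (R ⧸ I)ˣ) : R ⧸ I) := h1
        rw [h3, SubmonoidClass.coe_finsetProd, Units.coe_prod]
        refine prod_congr rfl fun i _ => ?_
        rw [Subgroup.coe_pow, Units.val_pow_eq_pow_val, hy2]
      rw [h2]
      obtain ⟨m, hm⟩ : ∃ m, d - 1 = r + m := ⟨d - 1 - r, by omega⟩
      have h5 : ∀ i : Fin (d - 1), mk ((if h : (i : ℕ) < r then 1 + y ⟨i, h⟩ else 1) ^
          (if h : (i : ℕ) < r then t j ⟨i, h⟩ else 0)) =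
          if h : (i : ℕ) < r then mk (1 + y ⟨i, h⟩) ^ t j ⟨i, h⟩ else 1 := by
        intro i
        by_cases h : (i : ℕ) < r
        · simp only [h, dif_pos, map_pow]
        · simp [h]
      rw [prod_congr rfl fun i _ => h5 i]
      have h6 : ∀ g : Fin r → R ⧸ I, ∏ i : Fin (d - 1), (if h : (i : ℕ) < r then g ⟨i, h⟩ else 1) =
          ∏ i, g i := by
        intro g
        have h7 : ∀ n, n = r + m → ∏ i : Fin n, (if h : (i : ℕ) < r then g ⟨i, h⟩ else 1) =
            ∏ i, g i := by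
          rintro _ rfl
          rw [Fin.prod_univ_add]
          simp
        exact h7 _ hm
      exact (h6 fun i => mk (1 + y i) ^ t j i).symm

end Level

open NumberField in
/-- **[W4]** either the closure of the group generated by the `x j` (`≡ 1 mod p`) is open, or
modulo every power of `p` it is contained in a group with `d - 1` generators. -/
theorem gen (D : Type*) [Field D] [NumberField D] (p : ℕ) [hp : Fact p.Prime] (hp2 : p ≠ 2) {l : ℕ}
    (x : Fin l → 𝓞 D) (hx : ∀ j, (p : 𝓞 D) ∣ x j - 1) :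
    (∃ K, ∀ k, ∀ z : 𝓞 D, (p : 𝓞 D) ^ K ∣ z - 1 →
      ∃ n : Fin l → ℕ, (p : 𝓞 D) ^ k ∣ z - ∏ j, x j ^ n j) ∨
    (∀ A, ∃ u : Fin (Module.finrank ℚ D - 1) → 𝓞 D, (∀ i, (p : 𝓞 D) ∣ u i - 1) ∧
      ∃ z : Fin l → Fin (Module.finrank ℚ D - 1) → ℕ,
        ∀ j, (p : 𝓞 D) ^ A ∣ x j - ∏ i, u i ^ z j i) := by
  have h0 : (p : 𝓞 D) ≠ 0 := by exact_mod_cast hp.out.ne_zero
  have hfin : ∀ K, Finite (𝓞 D ⧸ Ideal.span {(p : 𝓞 D) ^ K}) := fun K =>
    Ideal.finiteQuotientOfFreeOfNeBot _ (by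
      rw [Ne, Ideal.span_singleton_eq_bot]
      exact pow_ne_zero _ h0)
  have hfin1 : Finite (𝓞 D ⧸ Ideal.span {(p : 𝓞 D)}) := by
    have := hfin 1
    rwa [pow_one] at this
  have hcard : Nat.card (𝓞 D ⧸ Ideal.span {(p : 𝓞 D)}) = p ^ Module.finrank ℚ D := by
    have h1 : Ideal.absNorm (Ideal.span {(p : 𝓞 D)}) = p ^ Module.finrank ℚ D := by
      rw [Ideal.absNorm_span_singleton]
      have h2 : Algebra.norm ℤ (p : 𝓞 D) = (p : ℤ) ^ Module.finrank ℤ (𝓞 D) := by
        have := Algebra.norm_algebraMap_of_basis (RingOfIntegers.basis D) (p : ℤ)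
        rw [Module.finrank_eq_card_chooseBasisIndex, ← this]
        simp
      rw [h2, RingOfIntegers.rank, Int.natAbs_pow, Int.natAbs_natCast]
    rw [← h1, Ideal.absNorm_apply, Submodule.cardQuot_apply]
  by_cases h : ∃ K, 2 ≤ K ∧ ∀ w : 𝓞 D, ∃ n : Fin l → ℕ,
      (p : 𝓞 D) ^ K ∣ (1 + (p : 𝓞 D) ^ (K - 1) * w) - ∏ j, x j ^ n j
  · obtain ⟨K, hK, hw⟩ := h
    exact Or.inl ⟨K - 1, open_of_layer p hp2 x hx hK hw⟩
  · right
    intro A
    have hK : 2 ≤ max A 2 := le_max_right _ _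
    have := hfin (max A 2)
    rcases level p hp2 h0 (Module.finrank ℚ D) hcard hK x hx with h1 | ⟨u, hu, z, hz⟩
    · exact absurd ⟨max A 2, hK, h1⟩ h
    · exact ⟨u, hu, z, fun j => (pow_dvd_pow _ (le_max_left _ _)).trans (hz j)⟩

end Vale.Agent.P024.W.H95
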