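import Vale.Agent.P024.W.Zero2

/-! The conditions of the zero estimate hold for long boxes of moderate size. -/

namespace Vale.Agent.P024.W

lemma pow_lt_pow_of_large (c e : ℕ) {l : ℕ} (hl : e < l) : ∃ S₀ : ℕ, ∀ S ≥ S₀, c * S ^ e < S ^ l := by
  refine ⟨c + 1, fun S hS => ?_⟩
  have h1 : 0 < S := by omega
  obtain ⟨k, rfl⟩ : ∃ k, l = e + (k + 1) := ⟨l - e - 1, by omega⟩
  rw [pow_add, mul_comm c]
  apply Nat.mul_lt_mul_of_pos_left _ (pow_pos h1 e)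
  calc c < S := by omega
    _ = S ^ 1 := (pow_one S).symm
    _ ≤ S ^ (k + 1) := Nat.pow_le_pow_right h1 (by omega)

theorem cond_of_poly : ∀ n e c : ℕ, ∃ l₀ : ℕ, ∀ l ≥ l₀, ∃ S₀ : ℕ, ∀ S ≥ S₀, ∀ T ≤ c * S ^ e,
    Cond l n T S := by
  intro n
  induction n with
  | zero =>
    intro e c
    exact ⟨0, fun l _ => ⟨1, fun S hS T _ => by show 0 < S; omega⟩⟩
  | succ n ih =>
    intro e c
    obtain ⟨l₀, hl₀⟩ := ih (2 * e) ((2 * n + 1) * (c * 3 ^ e) ^ 2)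
    refine ⟨max l₀ (2 * e + 1), fun l hl => ?_⟩
    obtain ⟨S₁, hS₁⟩ := hl₀ l ((le_max_left _ _).trans hl)
    obtain ⟨S₂, hS₂⟩ := pow_lt_pow_of_large (((n + 1) * (c * 3 ^ e)) ^ 2) (2 * e)
      (l := l) (by have := (le_max_right l₀ (2 * e + 1)).trans hl; omega)
    refine ⟨2 * (max S₁ (max S₂ 1)) + 2, fun S hS T hT => ?_⟩
    have hS1 : S₁ ≤ S / 2 := by
      have := le_max_left S₁ (max S₂ 1)
      omega
    have hS2 : S₂ ≤ S / 2 := by
      have := (le_max_left S₂ 1).trans (le_max_right S₁ (max S₂ 1))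
      omega
    have hS3 : 1 ≤ S / 2 := by
      have := (le_max_right S₂ 1).trans (le_max_right S₁ (max S₂ 1))
      omega
    have hS4 : S ≤ 3 * (S / 2) := by omega
    have hT' : T ≤ (c * 3 ^ e) * (S / 2) ^ e := by
      refine hT.trans ?_
      calc c * S ^ e ≤ c * (3 * (S / 2)) ^ e := Nat.mul_le_mul_left _ (Nat.pow_le_pow_left hS4 e)
        _ = (c * 3 ^ e) * (S / 2) ^ e := by rw [mul_pow]; ring
    refine ⟨?_, hS₁ (S / 2) hS1 _ ?_⟩
    · calc ((n + 1) * T) ^ 2 ≤ ((n + 1) * ((c * 3 ^ e) * (S / 2) ^ e)) ^ 2 :=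
            Nat.pow_le_pow_left (Nat.mul_le_mul_left _ hT') 2
        _ = ((n + 1) * (c * 3 ^ e)) ^ 2 * (S / 2) ^ (2 * e) := by
            rw [pow_mul' (S / 2) 2 e]
            ring
        _ < (S / 2) ^ l := hS₂ (S / 2) hS2
    · calc 2 * n * T ^ 2 + T ≤ (2 * n + 1) * T ^ 2 := by nlinarith [Nat.le_self_pow two_ne_zero T]
        _ ≤ (2 * n + 1) * ((c * 3 ^ e) * (S / 2) ^ e) ^ 2 :=
            Nat.mul_le_mul_left _ (Nat.pow_le_pow_left hT' 2)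
        _ = (2 * n + 1) * (c * 3 ^ e) ^ 2 * (S / 2) ^ (2 * e) := by
            rw [pow_mul' (S / 2) 2 e]
            ring

end Vale.Agent.P024.W
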