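import Mathlib

/-! The zero estimate: a polynomial of small degree in `n` variables that vanishes at all points
`∏ ξ_j ^ s_j` of a box is zero. -/

namespace Vale.Agent.P024.W

open MvPolynomial Finset

variable {K : Type*} [Field K]

section Scale

variable {n : ℕ}

/-- the substitution `X i ↦ c i * X i` -/
noncomputable def scale (c : Fin n → K) : MvPolynomial (Fin n) K →ₐ[K] MvPolynomial (Fin n) K :=
  aeval fun i => C (c i) * X i

lemma scale_monomial (c : Fin n → K) (m : Fin n →₀ ℕ) (a : K) :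
    scale c (monomial m a) = monomial m ((∏ i, c i ^ m i) * a) := by
  rw [scale, aeval_monomial, Finsupp.prod_fintype _ _ (fun i => by simp)]
  simp_rw [mul_pow, prod_mul_distrib, ← C_pow]
  rw [← map_prod, monomial_eq (s := m), Finsupp.prod_fintype _ _ (fun i => by simp),
    algebraMap_eq, C_mul]
  ring

lemma coeff_scale (c : Fin n → K) (P : MvPolynomial (Fin n) K) (m : Fin n →₀ ℕ) :
    coeff m (scale c P) = (∏ i, c i ^ m i) * coeff m P := by
  classical
  induction P using MvPolynomial.induction_on' with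
  | monomial u a =>
    rw [scale_monomial, coeff_monomial, coeff_monomial]
    split_ifs with h
    · rw [h]
    · rw [mul_zero]
  | add p q hp hq => rw [map_add, coeff_add, coeff_add, hp, hq, mul_add]

lemma eval_scale (c x : Fin n → K) (P : MvPolynomial (Fin n) K) :
    eval x (scale c P) = eval (fun i => c i * x i) P := by
  induction P using MvPolynomial.induction_on with
  | C a => simp [scale]
  | add p q hp hq => rw [map_add, map_add, map_add, hp, hq]
  | mul_X p i hp =>
    rw [map_mul, map_mul, map_mul, hp]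
    simp [scale]

lemma scale_scale (c c' : Fin n → K) (P : MvPolynomial (Fin n) K) :
    scale c (scale c' P) = scale (fun i => c i * c' i) P := by
  ext m
  rw [coeff_scale, coeff_scale, coeff_scale, ← mul_assoc, ← prod_mul_distrib]
  simp_rw [mul_pow]

lemma scale_one (P : MvPolynomial (Fin n) K) : scale (fun _ => (1 : K)) P = P := by
  ext m
  rw [coeff_scale]
  simp

lemma support_scale {c : Fin n → K} (hc : ∀ i, c i ≠ 0) (P : MvPolynomial (Fin n) K) :
    (scale c P).support = P.support := by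
  ext m
  rw [mem_support_iff, mem_support_iff, coeff_scale, mul_ne_zero_iff]
  have : ∏ i, c i ^ m i ≠ 0 := prod_ne_zero_iff.2 fun i _ => pow_ne_zero _ (hc i)
  tauto

lemma degreeOf_scale {c : Fin n → K} (hc : ∀ i, c i ≠ 0) (P : MvPolynomial (Fin n) K)
    (i : Fin n) : (scale c P).degreeOf i = P.degreeOf i := by
  rw [degreeOf_eq_sup, degreeOf_eq_sup, support_scale hc]

lemma irreducible_scale {c : Fin n → K} (hc : ∀ i, c i ≠ 0) {P : MvPolynomial (Fin n) K}
    (hP : Irreducible P) : Irreducible (scale c P) := by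
  have h1 : ∀ Q : MvPolynomial (Fin n) K, scale (fun i => (c i)⁻¹) (scale c Q) = Q := by
    intro Q
    rw [scale_scale]
    simp_rw [inv_mul_cancel₀ (hc _)]
    exact scale_one Q
  have h2 : ∀ Q : MvPolynomial (Fin n) K, scale c (scale (fun i => (c i)⁻¹) Q) = Q := by
    intro Q
    rw [scale_scale]
    simp_rw [mul_inv_cancel₀ (hc _)]
    exact scale_one Q
  let e : MvPolynomial (Fin n) K ≃* MvPolynomial (Fin n) K :=
    { toFun := scale c
      invFun := scale (fun i => (c i)⁻¹)
      left_inv := h1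
      right_inv := h2
      map_mul' := fun a b => map_mul (scale c) a b }
  exact (MulEquiv.irreducible_iff e).2 hP

end Scale

section Factors

variable {n : ℕ}

lemma card_le_totalDegree (s : Multiset (MvPolynomial (Fin n) K))
    (hs : ∀ q ∈ s, q ≠ 0 ∧ 0 < q.totalDegree) :
    s.prod ≠ 0 ∧ Multiset.card s ≤ s.prod.totalDegree := by
  induction s using Multiset.induction with
  | empty => simp
  | cons q s ih =>
    obtain ⟨h1, h2⟩ := ih fun q hq => hs q (Multiset.mem_cons_of_mem hq)
    obtain ⟨h3, h4⟩ := hs q (Multiset.mem_cons_self _ _)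
    rw [Multiset.prod_cons, Multiset.card_cons]
    refine ⟨mul_ne_zero h3 h1, ?_⟩
    rw [totalDegree_mul_of_isDomain h3 h1]
    omega

lemma totalDegree_unit {w : MvPolynomial (Fin n) K} (hw : IsUnit w) : w.totalDegree = 0 := by
  obtain ⟨w', hw'⟩ := hw.exists_right_inv
  have h0 : w ≠ 0 := hw.ne_zero
  have h1 : w' ≠ 0 := by
    rintro rfl
    simp at hw'
  have := congrArg totalDegree hw'
  rw [totalDegree_mul_of_isDomain h0 h1, totalDegree_one] at this
  omega

lemma totalDegree_pos_of_irreducible {q : MvPolynomial (Fin n) K} (hq : Irreducible q) :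
    0 < q.totalDegree := by
  rcases Nat.eq_zero_or_pos q.totalDegree with h | h
  · exfalso
    rw [totalDegree_eq_zero_iff_eq_C] at h
    apply hq.not_isUnit
    rw [h]
    refine IsUnit.map C (isUnit_iff_ne_zero.2 ?_)
    intro h0
    rw [h0, map_zero] at h
    exact hq.ne_zero h
  · exact h

lemma card_factors_le {P : MvPolynomial (Fin n) K} (hP : P ≠ 0) :
    Multiset.card (UniqueFactorizationMonoid.factors P) ≤ P.totalDegree := by
  obtain ⟨h1, h2⟩ := card_le_totalDegree (UniqueFactorizationMonoid.factors P) fun q hq => by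
    have := UniqueFactorizationMonoid.irreducible_of_factor q hq
    exact ⟨this.ne_zero, totalDegree_pos_of_irreducible this⟩
  obtain ⟨w, hw⟩ := UniqueFactorizationMonoid.factors_prod hP
  rw [← hw, totalDegree_mul_of_isDomain h1 w.ne_zero, totalDegree_unit w.isUnit, add_zero]
  convert h2 using 2
  rw [hw]

/-- an irreducible polynomial which is not divisible by a variable has two monomials -/
lemma exists_two {q : MvPolynomial (Fin n) K} (hq : Irreducible q) (hX : ∀ i, ¬ X i ∣ q) :
    ∃ m ∈ q.support, ∃ m' ∈ q.support, m ≠ m' := by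
  classical
  by_contra h
  push Not at h
  obtain ⟨m, hm⟩ : q.support.Nonempty := support_nonempty.2 hq.ne_zero
  have h1 : q.support = {m} := by
    ext m'
    rw [mem_singleton]
    constructor
    · intro h'
      exact h m' h' m hm
    · rintro rfl
      exact hm
  have h2 : q = monomial m (coeff m q) := by
    conv_lhs => rw [q.as_sum, h1, sum_singleton]
  by_cases h0 : m = 0
  · apply hq.not_isUnit
    rw [h2, h0]
    exact IsUnit.map C (isUnit_iff_ne_zero.2 (by
      rw [← h0]
      exact mem_support_iff.1 hm))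
  · obtain ⟨i, hi⟩ : ∃ i, m i ≠ 0 := by
      by_contra h'
      push Not at h'
      exact h0 (Finsupp.ext h')
    apply hX i
    rw [h2, X_dvd_monomial]
    exact Or.inr hi

end Factors

section Points

variable {l n : ℕ}

/-- the point `∏ ξ_j ^ s_j` -/
def pt (ξ : Fin l → Fin n → K) (s : Fin l → ℕ) (i : Fin n) : K := ∏ j, ξ j i ^ s j

lemma pt_ne_zero {ξ : Fin l → Fin n → K} (hξ : ∀ j i, ξ j i ≠ 0) (s : Fin l → ℕ) (i : Fin n) :
    pt ξ s i ≠ 0 := prod_ne_zero_iff.2 fun j _ => pow_ne_zero _ (hξ j i)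

lemma pt_add (ξ : Fin l → Fin n → K) (s u : Fin l → ℕ) (i : Fin n) :
    pt ξ s i * pt ξ u i = pt ξ (s + u) i := by
  simp only [pt, ← prod_mul_distrib, Pi.add_apply, pow_add]

/-- the coordinates are multiplicatively independent in a strong sense -/
def Indep (ξ : Fin l → Fin n → K) : Prop :=
  ∀ (a : Fin n → ℤ) (s : Fin l → ℤ), a ≠ 0 → ∏ i, ∏ j, ξ j i ^ (a i * s j) = 1 → s = 0

/-- some translate has no common factor with the polynomial -/
lemma exists_translate {ξ : Fin l → Fin n → K} (hξ : ∀ j i, ξ j i ≠ 0) (hind : Indep ξ)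
    {P : MvPolynomial (Fin n) K} (hP : P ≠ 0) (hX : ∀ i, ¬ X i ∣ P) {S : ℕ}
    (hS : P.totalDegree ^ 2 < S ^ l) :
    ∃ u : Fin l → ℕ, (∀ j, u j < S) ∧ IsRelPrime P (scale (pt ξ u) P) := by
  classical
  by_contra hcon
  push Not at hcon
  have h1 : ∀ u : Fin l → ℕ, (∀ j, u j < S) →
      ∃ q q' : MvPolynomial (Fin n) K, q ∈ UniqueFactorizationMonoid.factors P ∧
        q' ∈ UniqueFactorizationMonoid.factors P ∧
        Associated (scale (fun i => (pt ξ u i)⁻¹) q) q' := by
    intro u hu
    have h2 := hcon u hu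
    have h3 : ∃ z, Irreducible z ∧ z ∣ P ∧ z ∣ scale (pt ξ u) P := by
      by_contra h
      push Not at h
      exact h2 (WfDvdMonoid.isRelPrime_of_no_irreducible_factors (fun h' => hP h'.1) h)
    obtain ⟨z, hz, hz1, hz2⟩ := h3
    obtain ⟨q, hq, hzq⟩ := UniqueFactorizationMonoid.exists_mem_factors_of_dvd hP hz hz1
    have hqi := UniqueFactorizationMonoid.irreducible_of_factor q hq
    have hq2 : q ∣ scale (pt ξ u) P := hzq.symm.dvd.trans hz2
    have hu0 : ∀ i, (pt ξ u i)⁻¹ ≠ 0 := fun i => inv_ne_zero (pt_ne_zero hξ u i)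
    have h4 : scale (fun i => (pt ξ u i)⁻¹) q ∣ P := by
      have h5 := map_dvd (scale fun i => (pt ξ u i)⁻¹) hq2
      rw [scale_scale] at h5
      simp_rw [inv_mul_cancel₀ (pt_ne_zero hξ u _)] at h5
      rwa [scale_one] at h5
    obtain ⟨q', hq', h6⟩ := UniqueFactorizationMonoid.exists_mem_factors_of_dvd hP
      (irreducible_scale hu0 hqi) h4
    exact ⟨q, q', hq, hq', h6⟩
  choose! q q' hq hq' hqq using h1
  set F : Finset (MvPolynomial (Fin n) K) := (UniqueFactorizationMonoid.factors P).toFinset with hF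
  have hFc : F.card ≤ P.totalDegree := (Multiset.toFinset_card_le _).trans (card_factors_le hP)
  set B : Finset (Fin l → ℕ) := Fintype.piFinset fun _ => range S with hB
  have hBc : B.card = S ^ l := by
    rw [hB, Fintype.card_piFinset]
    simp
  have hBm : ∀ u ∈ B, ∀ j, u j < S := by
    intro u hu j
    rw [hB, Fintype.mem_piFinset] at hu
    exact mem_range.1 (hu j)
  obtain ⟨u, hu, v, hv, huv, he⟩ := exists_ne_map_eq_of_card_lt_of_maps_to
    (s := B) (t := F ×ˢ F) (f := fun u => (q u, q' u))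
    (by
      rw [card_product, hBc]
      refine lt_of_le_of_lt ?_ hS
      rw [pow_two]
      exact Nat.mul_le_mul hFc hFc)
    (by
      intro u hu
      rw [coe_product, Set.mem_prod, mem_coe, mem_coe, hF, Multiset.mem_toFinset,
        Multiset.mem_toFinset]
      exact ⟨hq u (hBm u hu), hq' u (hBm u hu)⟩)
  simp only [Prod.mk.injEq] at he
  have hqi := UniqueFactorizationMonoid.irreducible_of_factor _ (hq u (hBm u hu))
  have hqP := UniqueFactorizationMonoid.dvd_of_mem_factors (hq u (hBm u hu))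
  obtain ⟨m, hm, m', hm', hmm⟩ := exists_two hqi fun i hi => hX i (hi.trans hqP)
  have h7 : Associated (scale (fun i => (pt ξ u i)⁻¹) (q u))
      (scale (fun i => (pt ξ v i)⁻¹) (q u)) := by
    have h8 := hqq u (hBm u hu)
    have h9 := hqq v (hBm v hv)
    rw [← he.1, ← he.2] at h9
    exact h8.trans h9.symm
  obtain ⟨w, hw⟩ := h7
  obtain ⟨c, hc⟩ : ∃ c : K, (w : MvPolynomial (Fin n) K) = C c :=
    ⟨_, totalDegree_eq_zero_iff_eq_C.1 (totalDegree_unit w.isUnit)⟩
  have key : ∀ m ∈ (q u).support, c = ∏ i, (pt ξ u i * (pt ξ v i)⁻¹) ^ m i := by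
    intro m hm
    have h10 := congrArg (coeff m) hw
    rw [hc, mul_comm, coeff_C_mul, coeff_scale, coeff_scale] at h10
    have h11 := mem_support_iff.1 hm
    have h12 : c * ∏ i, (pt ξ u i)⁻¹ ^ m i = ∏ i, (pt ξ v i)⁻¹ ^ m i := by
      apply mul_right_cancel₀ h11
      rw [← h10]
      ring
    have h13 : ∏ i, (pt ξ u i)⁻¹ ^ m i ≠ 0 :=
      prod_ne_zero_iff.2 fun i _ => pow_ne_zero _ (inv_ne_zero (pt_ne_zero hξ u i))
    apply mul_right_cancel₀ h13
    rw [h12, ← prod_mul_distrib]
    refine prod_congr rfl fun i _ => ?_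
    rw [← mul_pow]
    congr 1
    rw [mul_right_comm, mul_inv_cancel₀ (pt_ne_zero hξ u i), one_mul]
  have h14 : ∏ i, ∏ j, ξ j i ^ (((m i : ℤ) - m' i) * ((u j : ℤ) - v j)) = 1 := by
    have h15 : ∀ i, ∏ j, ξ j i ^ (((m i : ℤ) - m' i) * ((u j : ℤ) - v j))
        = (pt ξ u i * (pt ξ v i)⁻¹) ^ ((m i : ℤ) - m' i) := by
      intro i
      unfold pt
      rw [← prod_inv_distrib, ← prod_mul_distrib, ← Finset.prod_zpow]
      refine prod_congr rfl fun j _ => ?_
      rw [mul_comm ((m i : ℤ) - m' i), zpow_mul, zpow_sub₀ (hξ j i), zpow_natCast, zpow_natCast,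
        div_eq_mul_inv]
    simp_rw [h15]
    have h16 : ∀ i, (pt ξ u i * (pt ξ v i)⁻¹) ≠ 0 := fun i =>
      mul_ne_zero (pt_ne_zero hξ u i) (inv_ne_zero (pt_ne_zero hξ v i))
    have h17 : ∀ i, (pt ξ u i * (pt ξ v i)⁻¹) ^ ((m i : ℤ) - m' i)
        = (pt ξ u i * (pt ξ v i)⁻¹) ^ m i / (pt ξ u i * (pt ξ v i)⁻¹) ^ m' i := by
      intro i
      rw [zpow_sub₀ (h16 i), zpow_natCast, zpow_natCast]
    simp_rw [h17]
    rw [prod_div_distrib, ← key m hm, ← key m' hm', div_self]
    intro h0
    rw [h0, map_zero] at hc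
    exact w.ne_zero hc
  have h18 := hind (fun i => (m i : ℤ) - m' i) (fun j => (u j : ℤ) - v j)
    (by
      intro h
      apply hmm
      ext i
      have := congrFun h i
      simp only [Pi.zero_apply] at this
      omega) h14
  apply huv
  ext j
  have := congrFun h18 j
  simp only [Pi.zero_apply] at this
  omega

end Points

end Vale.Agent.P024.W
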