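import Vale.Agent.P024.W.Zero

/-! Elimination of a variable by a dimension count, and the zero estimate. -/

namespace Vale.Agent.P024.W

open MvPolynomial Finset

variable {K : Type*} [Field K]

section Elim

variable {n : ℕ}

/-- the exponent with first entry `k` and the others `m` -/
noncomputable def expo {N : ℕ} (k : ℕ) (m : Fin n → Fin N) : Fin (n + 1) →₀ ℕ :=
  Finsupp.equivFunOnFinite.symm (Fin.cons k fun i => (m i : ℕ))

lemma expo_zero {N : ℕ} (k : ℕ) (m : Fin n → Fin N) : expo k m 0 = k := rfl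

lemma expo_succ {N : ℕ} (k : ℕ) (m : Fin n → Fin N) (i : Fin n) :
    expo k m i.succ = m i := by
  simp [expo]

lemma expo_inj {N : ℕ} {k k' : ℕ} {m m' : Fin n → Fin N} (h : expo k m = expo k' m') :
    k = k' ∧ m = m' := by
  refine ⟨by rw [← expo_zero k m, h, expo_zero], ?_⟩
  funext i
  apply Fin.ext
  rw [← expo_succ k m, h, expo_succ]

/-- polynomials with first degree `< a` and the other degrees `< N` -/
noncomputable def polyL (K : Type*) [Field K] (n a N : ℕ) :
    (Fin a × (Fin n → Fin N) → K) →ₗ[K] MvPolynomial (Fin (n + 1)) K :=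
  Fintype.linearCombination K fun x => monomial (expo (x.1 : ℕ) x.2) (1 : K)

lemma polyL_apply {a N : ℕ} (c : Fin a × (Fin n → Fin N) → K) :
    polyL K n a N c = ∑ x, monomial (expo (x.1 : ℕ) x.2) (c x) := by
  rw [polyL, Fintype.linearCombination_apply]
  refine sum_congr rfl fun x _ => ?_
  rw [smul_monomial, smul_eq_mul, mul_one]

lemma coeff_polyL {a N : ℕ} (c : Fin a × (Fin n → Fin N) → K) (x : Fin a × (Fin n → Fin N)) :
    coeff (expo (x.1 : ℕ) x.2) (polyL K n a N c) = c x := by
  classical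
  rw [polyL_apply, coeff_sum, sum_eq_single x]
  · rw [coeff_monomial, if_pos rfl]
  · intro y _ hy
    rw [coeff_monomial, if_neg]
    intro h
    obtain ⟨h1, h2⟩ := expo_inj h
    exact hy (Prod.ext (Fin.ext h1) h2)
  · intro h
    exact absurd (mem_univ x) h

lemma support_polyL {a N : ℕ} (c : Fin a × (Fin n → Fin N) → K) {m : Fin (n + 1) →₀ ℕ}
    (hm : m ∈ (polyL K n a N c).support) : m 0 < a ∧ ∀ i : Fin n, m i.succ < N := by
  classical
  rw [polyL_apply] at hm
  obtain ⟨x, -, hx⟩ := mem_biUnion.1 (support_sum hm)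
  have h1 : m = expo (x.1 : ℕ) x.2 := by
    have := support_monomial_subset hx
    rwa [mem_singleton] at this
  subst h1
  refine ⟨x.1.2, fun i => ?_⟩
  rw [expo_succ]
  exact (x.2 i).2

lemma eq_rename {W : MvPolynomial (Fin (n + 1)) K} (h : W.degreeOf 0 = 0) :
    ∃ R : MvPolynomial (Fin n) K, W = rename Fin.succ R ∧
      ∀ i, R.degreeOf i = W.degreeOf i.succ := by
  obtain ⟨R, hR⟩ := exists_rename_eq_of_vars_subset_range W Fin.succ (Fin.succ_injective n)
    (by
      intro i hi
      rw [mem_coe, mem_vars_iff_degreeOf_ne_zero] at hi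
      rcases Fin.eq_zero_or_eq_succ i with h0 | ⟨j, rfl⟩
      · exact absurd (h0 ▸ h) hi
      · exact ⟨j, rfl⟩)
  refine ⟨R, hR.symm, fun i => ?_⟩
  rw [← hR, degreeOf_rename_of_injective (Fin.succ_injective n)]

lemma dim_ineq {a T n : ℕ} (ha : 1 ≤ a) (haT : a < T) :
    (2 * a - 1) * (2 * n * T ^ 2 + T) ^ n < 2 * a * (2 * n * T ^ 2) ^ n := by
  have hT : (0 : ℝ) < T := by exact_mod_cast (by omega : 0 < T)
  set A : ℝ := 2 * n * T ^ 2 + T with hA
  have hA0 : 0 < A := by positivity
  have h1 : (1 : ℝ) + n * (-(T / A)) ≤ (1 + -(T / A)) ^ n := by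
    refine one_add_mul_le_pow ?_ n
    have : (T : ℝ) / A ≤ 1 := by
      rw [div_le_one hA0, hA]
      nlinarith [sq_nonneg (T : ℝ), (by positivity : (0 : ℝ) ≤ 2 * n * T ^ 2)]
    linarith
  have h2 : (2 * n * T ^ 2 : ℝ) = A * (1 + -(T / A)) := by
    field_simp
    rw [hA]
    ring
  have h3 : (2 * (a : ℝ) - 1) < 2 * a * (1 + n * (-(T / A))) := by
    have h4 : (2 * a * n * T : ℝ) < A := by
      have h5 : (a : ℝ) + 1 ≤ T := by exact_mod_cast haT
      have h6 : (2 * a * n * T : ℝ) ≤ 2 * n * T ^ 2 := by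
        have : (a : ℝ) * (n * T) ≤ T * (n * T) := by
          apply mul_le_mul_of_nonneg_right _ (by positivity)
          linarith
        nlinarith
      linarith
    have h7 : 2 * (a : ℝ) * (n * (T / A)) < 1 := by
      have : 2 * (a : ℝ) * (n * (T / A)) = (2 * a * n * T) / A := by ring
      rw [this, div_lt_one hA0]
      exact h4
    nlinarith
  have h8 : ((2 * a - 1 : ℕ) : ℝ) = 2 * a - 1 := by
    rw [Nat.cast_sub (by omega)]
    push_cast
    ring
  have h9 : (((2 * a - 1) * (2 * n * T ^ 2 + T) ^ n : ℕ) : ℝ)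
      < ((2 * a * (2 * n * T ^ 2) ^ n : ℕ) : ℝ) := by
    push_cast [h8]
    rw [← hA, h2, mul_pow]
    calc (2 * (a : ℝ) - 1) * A ^ n < 2 * a * (1 + n * (-(T / A))) * A ^ n :=
          mul_lt_mul_of_pos_right h3 (by positivity)
      _ ≤ 2 * a * (1 + -(T / A)) ^ n * A ^ n := by
          apply mul_le_mul_of_nonneg_right _ (by positivity)
          apply mul_le_mul_of_nonneg_left h1 (by positivity)
      _ = 2 * a * (A ^ n * (1 + -(T / A)) ^ n) := by ring
  exact_mod_cast h9

/-- Elimination of the first variable. -/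
lemma exists_elim {P Q : MvPolynomial (Fin (n + 1)) K} (hP : P ≠ 0) (hrel : IsRelPrime P Q)
    {T : ℕ} (hPQ : Q.degreeOf 0 = P.degreeOf 0) (hT : ∀ i, P.degreeOf i < T)
    (hTQ : ∀ i, Q.degreeOf i < T) :
    ∃ (A B : MvPolynomial (Fin (n + 1)) K) (R : MvPolynomial (Fin n) K), R ≠ 0 ∧
      (∀ i, R.degreeOf i < 2 * n * T ^ 2 + T) ∧ A * P + B * Q = rename Fin.succ R := by
  classical
  rcases Nat.eq_zero_or_pos (P.degreeOf 0) with h0 | ha
  · obtain ⟨R, hR, hRd⟩ := eq_rename h0
    refine ⟨1, 0, R, ?_, fun i => ?_, by rw [one_mul, zero_mul, add_zero, hR]⟩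
    · rintro rfl
      rw [map_zero] at hR
      exact hP hR
    · rw [hRd]
      exact (hT _).trans_le (Nat.le_add_left _ _)
  set a := P.degreeOf 0 with hadef
  set N := 2 * n * T ^ 2 with hN
  have haT : a < T := hT 0
  let ι := Fin a × (Fin n → Fin N)
  let κ := Fin (2 * a - 1) × (Fin n → Fin (N + T))
  let Φ : (ι → K) × (ι → K) →ₗ[K] (κ → K) := LinearMap.pi fun y =>
    (lcoeff K (expo (y.1 + 1 : ℕ) y.2)) ∘ₗ
      ((LinearMap.mulRight K P ∘ₗ polyL K n a N ∘ₗ LinearMap.fst K _ _) +
        (LinearMap.mulRight K Q ∘ₗ polyL K n a N ∘ₗ LinearMap.snd K _ _))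
  have hΦ : ∀ c y, Φ c y = coeff (expo (y.1 + 1 : ℕ) y.2)
      (polyL K n a N c.1 * P + polyL K n a N c.2 * Q) := fun c y => rfl
  have hker : LinearMap.ker Φ ≠ ⊥ := by
    apply LinearMap.ker_ne_bot_of_finrank_lt
    rw [Module.finrank_prod, Module.finrank_fintype_fun_eq_card,
      Module.finrank_fintype_fun_eq_card, Fintype.card_prod, Fintype.card_prod, Fintype.card_fun,
      Fintype.card_fun, Fintype.card_fin, Fintype.card_fin, Fintype.card_fin, Fintype.card_fin,
      Fintype.card_fin]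
    have := dim_ineq (n := n) ha haT
    rw [← hN] at this
    calc (2 * a - 1) * (N + T) ^ n < 2 * a * N ^ n := this
      _ = a * N ^ n + a * N ^ n := by ring
  obtain ⟨c, hc, hc0⟩ := (Submodule.ne_bot_iff _).1 hker
  rw [LinearMap.mem_ker] at hc
  set A := polyL K n a N c.1 with hA
  set B := polyL K n a N c.2 with hB
  set W := A * P + B * Q with hW
  have hdA : A.degreeOf 0 < a := (degreeOf_lt_iff ha).2 fun m hm => (support_polyL _ hm).1
  have hdB : B.degreeOf 0 < a := (degreeOf_lt_iff ha).2 fun m hm => (support_polyL _ hm).1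
  have hW0 : W ≠ 0 := by
    intro h
    have h1 : P ∣ B * Q := by
      refine ⟨-A, ?_⟩
      have : B * Q = -(A * P) := eq_neg_of_add_eq_zero_right h
      rw [this]
      ring
    have h2 : P ∣ B := hrel.dvd_of_dvd_mul_right h1
    have h3 : B = 0 := by
      by_contra hB0
      obtain ⟨D, hD⟩ := h2
      have hD0 : D ≠ 0 := by
        rintro rfl
        rw [mul_zero] at hD
        exact hB0 hD
      have := degreeOf_mul_eq (n := (0 : Fin (n + 1))) hP hD0
      rw [← hD] at this
      omega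
    have h4 : A = 0 := by
      have h5 : A * P = 0 := by
        have := h
        rw [hW, h3, zero_mul, add_zero] at this
        exact this
      exact (mul_eq_zero.1 h5).resolve_right hP
    apply hc0
    refine Prod.ext ?_ ?_
    · funext x
      rw [← coeff_polyL c.1 x, ← hA, h4]
      simp
    · funext x
      rw [← coeff_polyL c.2 x, ← hB, h3]
      simp
  have hbound : ∀ (A : MvPolynomial (Fin (n + 1)) K) (c : ι → K), A = polyL K n a N c →
      ∀ P : MvPolynomial (Fin (n + 1)) K, P.degreeOf 0 = a → (∀ i, P.degreeOf i < T) →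
      ∀ m ∈ (A * P).support, m 0 < 2 * a ∧ ∀ i : Fin n, m i.succ < N + T := by
    intro A c hAc P hPa hPT m hm
    obtain ⟨m1, h1, m2, h2, rfl⟩ := mem_add.1 (support_mul A P hm)
    rw [hAc] at h1
    obtain ⟨h3, h4⟩ := support_polyL _ h1
    have h5 : ∀ i, m2 i ≤ P.degreeOf i := fun i => le_degreeOf_of_mem_support i h2
    refine ⟨?_, fun i => ?_⟩
    · rw [Finsupp.add_apply]
      have := h5 0
      omega
    · rw [Finsupp.add_apply]
      have h6 := h5 i.succ
      have h7 := hPT i.succ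
      have h8 := h4 i
      omega
  have hWs : ∀ m ∈ W.support, m 0 < 2 * a ∧ ∀ i : Fin n, m i.succ < N + T := by
    intro m hm
    rcases mem_union.1 (support_add hm) with h | h
    · exact hbound A c.1 hA P rfl hT m h
    · exact hbound B c.2 hB Q hPQ hTQ m h
  have hWz : ∀ m ∈ W.support, m 0 = 0 := by
    intro m hm
    by_contra h
    obtain ⟨h1, h2⟩ := hWs m hm
    have h3 : m = expo ((⟨m 0 - 1, by omega⟩ : Fin (2 * a - 1)) + 1 : ℕ)
        (fun i => (⟨m i.succ, h2 i⟩ : Fin (N + T))) := by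
      ext i
      rcases Fin.eq_zero_or_eq_succ i with h0 | ⟨j, rfl⟩
      · rw [h0, expo_zero]
        show m 0 = m 0 - 1 + 1
        omega
      · rw [expo_succ]
    have h4 := congrFun hc (⟨m 0 - 1, by omega⟩, fun i => ⟨m i.succ, h2 i⟩)
    rw [hΦ, Pi.zero_apply] at h4
    rw [mem_support_iff, h3] at hm
    exact hm h4
  have hWd : W.degreeOf 0 = 0 := by
    have : W.degreeOf 0 ≤ 0 := degreeOf_le_iff.2 fun m hm => (hWz m hm).le
    omega
  obtain ⟨R, hR, hRd⟩ := eq_rename hWd
  refine ⟨A, B, R, ?_, fun i => ?_, hR⟩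
  · rintro rfl
    rw [map_zero] at hR
    exact hW0 hR
  · rw [hRd]
    have hpos : 0 < N + T := by omega
    exact (degreeOf_lt_iff hpos).2 fun m hm => (hWs m hm).2 i

end Elim

/-- the conditions on the degree `T` and the size `S` of the box -/
def Cond (l : ℕ) : ℕ → ℕ → ℕ → Prop
  | 0, _, S => 0 < S
  | n + 1, T, S => ((n + 1) * T) ^ 2 < (S / 2) ^ l ∧ Cond l n (2 * n * T ^ 2 + T) (S / 2)

lemma Cond.pos {l : ℕ} : ∀ {n T S : ℕ}, Cond l n T S → 0 < S
  | 0, _, _, h => h
  | n + 1, T, S, h => by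
    have := Cond.pos h.2
    omega

lemma totalDegree_lt {n T : ℕ} {P : MvPolynomial (Fin n) K} (hdeg : ∀ i, P.degreeOf i < T) :
    P.totalDegree ≤ n * T := by
  rw [totalDegree]
  refine Finset.sup_le fun m hm => ?_
  rw [Finsupp.sum_fintype _ _ (fun _ => rfl)]
  calc ∑ i, m i ≤ ∑ _i : Fin n, T := sum_le_sum fun i _ =>
        (le_degreeOf_of_mem_support i hm).trans (hdeg i).le
    _ = n * T := by simp

/-- **The zero estimate.** -/
theorem zero_est {l : ℕ} : ∀ (n : ℕ) (ξ : Fin l → Fin n → K), (∀ j i, ξ j i ≠ 0) → Indep ξ →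
    ∀ T S : ℕ, Cond l n T S → ∀ P : MvPolynomial (Fin n) K, (∀ i, P.degreeOf i < T) →
    (∀ s : Fin l → ℕ, (∀ j, s j < S) → eval (pt ξ s) P = 0) → P = 0 := by
  intro n
  induction n with
  | zero =>
    intro ξ _ _ T S hS P _ hvan
    obtain ⟨c, rfl⟩ := C_surjective (Fin 0) P
    have := hvan 0 fun _ => hS
    rw [eval_C] at this
    rw [this, map_zero]
  | succ n ih =>
    intro ξ hξ hind T S hS P₀ hdeg₀ hvan₀
    by_contra hP₀
    have hT : 0 < T := lt_of_le_of_lt (Nat.zero_le _) (hdeg₀ 0)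
    obtain ⟨P, ⟨hP, hdeg, hvan⟩, hmin⟩ := WellFounded.has_min
      (measure (fun P : MvPolynomial (Fin (n + 1)) K => P.totalDegree)).wf
      {P | P ≠ 0 ∧ (∀ i, P.degreeOf i < T) ∧
        ∀ s : Fin l → ℕ, (∀ j, s j < S) → eval (pt ξ s) P = 0}
      ⟨P₀, hP₀, hdeg₀, hvan₀⟩
    have hX : ∀ i, ¬ X i ∣ P := by
      rintro i ⟨R, rfl⟩
      have hR : R ≠ 0 := by
        rintro rfl
        exact hP (mul_zero _)
      refine hmin R ⟨hR, fun j => ?_, fun s hs => ?_⟩ ?_
      · have h1 := degreeOf_mul_eq (n := j) (X_ne_zero i (R := K)) hR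
        have h2 := hdeg j
        omega
      · have h1 := hvan s hs
        rw [map_mul, eval_X] at h1
        exact (mul_eq_zero.1 h1).resolve_left (pt_ne_zero hξ s i)
      · show R.totalDegree < (X i * R).totalDegree
        rw [totalDegree_mul_of_isDomain (X_ne_zero i) hR, totalDegree_X]
        omega
    have hcard : P.totalDegree ^ 2 < (S / 2) ^ l :=
      lt_of_le_of_lt (Nat.pow_le_pow_left (totalDegree_lt hdeg) 2) hS.1
    obtain ⟨u, hu, hrel⟩ := exists_translate hξ hind hP hX hcard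
    have hu0 := pt_ne_zero hξ u
    obtain ⟨A, B, R, hR, hRd, hABR⟩ := exists_elim hP hrel (degreeOf_scale hu0 P 0) hdeg
      (fun i => by rw [degreeOf_scale hu0]; exact hdeg i)
    apply hR
    refine ih (fun j i => ξ j i.succ) (fun j i => hξ j i.succ) ?_ _ _ hS.2 R hRd ?_
    · intro a s ha hprod
      refine hind (Fin.cons 0 a) s ?_ ?_
      · intro h
        apply ha
        funext i
        have := congrFun h i.succ
        simpa using this
      · rw [Fin.prod_univ_succ]
        simpa using hprod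
    · intro s hs
      have h1 : eval (pt (fun j i => ξ j i.succ) s) R = eval (pt ξ s) (rename Fin.succ R) := by
        rw [eval_rename]
        rfl
      rw [h1, ← hABR, map_add, map_mul, map_mul, hvan s (fun j => by have := hs j; omega),
        eval_scale]
      have h2 : (fun i => pt ξ u i * pt ξ s i) = pt ξ (u + s) := by
        funext i
        exact pt_add ξ u s i
      rw [h2, hvan (u + s) (fun j => by
        have h3 := hs j
        have h4 := hu j
        rw [Pi.add_apply]
        omega)]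
      ring

end Vale.Agent.P024.W
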